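import Vale.Agent.P188.Bdl.B3

/-!
Structure of the groups quasi-isometric to a virtually polycyclic group: bounded torsion, bounded
direct products and, for the exponentially distorted extensions of `ℤ^k`, a cobounded isometric
action on the Euclidean space of dimension `k` with kernel of locally subexponential growth.
-/

universe u v

open Pointwise

namespace Vale.Agent.Results.P188.Structure

open Vale.Agent.P188

/-- There is a bound (in the sense of divisibility) on the orders of the finite subgroups of `H`,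
and a bound on the number of factors of a direct product of nontrivial subgroups in `H`. -/
def BoundedParts (H : Type u) [Group H] : Prop :=
  (∃ m : ℕ, 0 < m ∧ ∀ F : Subgroup H, Finite F → Nat.card F ∣ m) ∧
  (∃ N : ℕ, ∀ (k : ℕ) (A : Fin k → Subgroup H), (∀ i, A i ≠ ⊥) →
    (∀ i j, i ≠ j → ∀ x ∈ A i, ∀ y ∈ A j, Commute x y) → iSupIndep A → k ≤ N)

/-- `H` acts by isometries on `ℝ^k`, with cobounded orbits, so that for every finite subset `B` of
the kernel and every `α > 0` there is `C` with `|B^m| ≤ exp (C m^α)` and such that the elements of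
`B^m` have length at most `C m^α` in `H`. -/
def EuclideanStructure (H : Type u) [Group H] (k : ℕ) : Prop :=
  ∃ ρ : H → EuclideanSpace ℝ (Fin k) → EuclideanSpace ℝ (Fin k),
    (∀ w, ρ 1 w = w) ∧ (∀ g h w, ρ (g * h) w = ρ g (ρ h w)) ∧
    (∀ g w w', dist (ρ g w) (ρ g w') = dist w w') ∧
    (∃ D : ℝ, ∀ w w' : EuclideanSpace ℝ (Fin k), ∃ g : H, dist (ρ g w) w' ≤ D) ∧
    ∀ B : Set H, B.Finite → (∀ x ∈ B, ∀ w, ρ x w = w) → ∀ α : ℝ, 0 < α →
      (∃ C : ℝ, ∀ m : ℕ, ((B ^ m).ncard : ℝ) ≤ Real.exp (C * (m : ℝ) ^ α)) ∧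
      ∀ S : Finset H, Subgroup.closure (S : Set H) = ⊤ →
        ∃ C : ℝ, ∀ m : ℕ, ∀ x ∈ B ^ m, (wordDist (S : Set H) 1 x : ℝ) ≤ C * (m : ℝ) ^ α

theorem boundedParts {H : Type u} {G : Type v} [Group H] [Group G] (hG : IsVirtuallyPolycyclic G)
    (h : QuasiIsometric H G) : BoundedParts H := by
  obtain ⟨n, Z, _, hZ, hGZ⟩ := hG.exists_coarseEquiv
  have hHZ : CoarseEquiv H Z := h.coarseEquiv.trans hGZ
  exact ⟨card_dvd_of_coarseEquiv hHZ hZ, product_bound hHZ hZ⟩

theorem euclideanStructure {G : Type v} [Group G] {k : ℕ} {θ : G →* Multiplicative (Fin k → ℤ)}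
    {A T : Finset G} (hE : SG.ExpExt θ A T) {H : Type u} [Group H] (hq : QuasiIsometric H G) :
    EuclideanStructure H k := by
  obtain ⟨S₀, hS₀, ρ, ⟨D, hD⟩, hB⟩ := SG.mainK hE hq
  have hone : ∀ w, ρ 1 w = w := fun w => by rw [map_one]; rfl
  have hmul : ∀ g h w, ρ (g * h) w = ρ g (ρ h w) := fun g h w => by rw [map_mul]; rfl
  refine ⟨fun g w => ρ g w, hone, hmul,
    fun g w w' => (ρ g).dist_eq w w', ⟨2 * D, fun w w' => ?_⟩, fun B hBf hBk α hα => ?_⟩
  · obtain ⟨g, hg⟩ := hD w
    obtain ⟨g', hg'⟩ := hD w'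
    refine ⟨g' * g⁻¹, ?_⟩
    have h1 : dist (ρ (g' * g⁻¹) w) (ρ g' 0) ≤ D := by
      have h3 : ρ g (ρ g⁻¹ w) = w := by rw [← hmul, mul_inv_cancel, hone]
      rw [hmul, (ρ g').dist_eq, ← (ρ g).dist_eq, h3, dist_comm]
      exact hg
    change dist (ρ (g' * g⁻¹) w) w' ≤ 2 * D
    linarith [dist_triangle (ρ (g' * g⁻¹) w) (ρ g' 0) w']
  · have hBk' : B ⊆ ρ.ker := by
      intro x hx
      rw [SetLike.mem_coe, MonoidHom.mem_ker]
      ext1 w
      exact hBk x hx w
    obtain ⟨C, hC⟩ := hB B hBf hBk' α hα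
    refine ⟨⟨C, fun m => (hC m).2⟩, fun S hS => ?_⟩
    obtain ⟨M, hM0, hM⟩ := SG.geo1_len_comp hS₀ hS
    refine ⟨M * C, fun m x hx => ?_⟩
    calc (wordDist (S : Set H) 1 x : ℝ) ≤ M * SG.len S₀ x := hM x
      _ ≤ M * (C * (m : ℝ) ^ α) := mul_le_mul_of_nonneg_left ((hC m).1 x hx) hM0
      _ = M * C * (m : ℝ) ^ α := by ring

/-- (A) Every group quasi-isometric to a virtually polycyclic group has bounded torsion and bounded
direct products. (B) Let `G` be an extension of `ℤ^k` by a finitely generated group `ker θ` (with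
finite generating set `A`) of polynomial growth which is exponentially distorted in `G`. Every group
quasi-isometric to `G` has a Euclidean structure of dimension `k`. (C) Let `G` be an extension of
`ℤ^k` by `ℤ^d` such that some `g₀ ∈ G` acts on `ℤ^d` by a matrix `M` without complex eigenvalue of
modulus one. Every group quasi-isometric to `G` has both properties. -/
theorem result :
    (∀ {H : Type u} {G : Type v} [Group H] [Group G], IsVirtuallyPolycyclic G →
      QuasiIsometric H G → BoundedParts H) ∧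
    (∀ {G : Type v} [Group G] {k : ℕ} (θ : G →* Multiplicative (Fin k → ℤ)) (A T : Finset G),
      Function.Surjective θ → Subgroup.closure (A : Set G) = θ.ker →
      Subgroup.closure (T : Set G) = ⊤ →
      (∃ C D : ℕ, ∀ n : ℕ,
        {x : G | x ∈ θ.ker ∧ wordDist (A : Set G) 1 x ≤ n}.ncard ≤ C * (n + 1) ^ D) →
      (∃ C : ℝ, ∀ x ∈ θ.ker, (wordDist (T : Set G) 1 x : ℝ) ≤
        C * (1 + Real.log (1 + wordDist (A : Set G) 1 x))) →
      ∀ {H : Type u} [Group H], QuasiIsometric H G → EuclideanStructure H k) ∧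
    (∀ {G : Type v} [Group G] {d k : ℕ} (ι : Multiplicative (Fin d → ℤ) →* G)
      (θ : G →* Multiplicative (Fin k → ℤ)) (g₀ : G) (M : Matrix (Fin d) (Fin d) ℤ),
      Function.Injective ι → Function.Surjective θ → ι.range = θ.ker →
      (∀ v : Fin d → ℤ, g₀ * ι (Multiplicative.ofAdd v) * g₀⁻¹ =
        ι (Multiplicative.ofAdd (M.mulVec v))) →
      (∀ μ : ℂ, (M.map (Int.castRingHom ℂ)).charpoly.IsRoot μ → ‖μ‖ ≠ 1) →
      ∀ {H : Type u} [Group H], QuasiIsometric H G →
        BoundedParts H ∧ EuclideanStructure H k) := by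
  refine ⟨fun hG h => boundedParts hG h, ?_, ?_⟩
  · intro G _ k θ A T hθ hA hT hgrowth hdist H _ hq
    have hE : SG.ExpExt θ A T := ⟨hθ, hA, hT, hgrowth, hdist⟩
    exact euclideanStructure hE hq
  · intro G _ d k ι θ g₀ M hι hθ hker hM hyp H _ hq
    obtain ⟨A, T, hE⟩ := SG.expExt_extension ι θ g₀ M hι hθ hker hM hyp
    exact ⟨boundedParts (SG.isVirtuallyPolycyclic_extension ι θ hθ hker) hq,
      euclideanStructure hE hq⟩

end Vale.Agent.Results.P188.Structure
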